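import Vale.Agent.P251EJ.DefsS

/-!
# P251EJ: the cells of the powers of the sphere
-/

open Set OnePoint

noncomputable section

namespace Vale.Agent.P251EJ98

open Vale.Agent.P251EJ

variable {n M d : ℕ}

open Classical in
/-- the parameters of all coordinates -/
def SS (g : ℝ → ℝ) (y : Fin M → Sp n) : Finset ℝ :=
  Finset.univ.biUnion fun i => (y i).elim ∅ fun v => Finset.univ.image fun r => g (v r)

theorem mem_SS {g : ℝ → ℝ} {y : Fin M → Sp n} {t : ℝ} :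
    t ∈ SS g y ↔ ∃ (i : Fin M) (v : Fin n → ℝ) (r : Fin n), y i = v ∧ g (v r) = t := by
  simp only [SS, Finset.mem_biUnion, Finset.mem_univ, true_and]
  refine exists_congr fun i => ?_
  induction y i using OnePoint.rec with
  | infty => simp
  | coe v => simp

theorem card_SS (g : ℝ → ℝ) (y : Fin M → Sp n) : (SS g y).card ≤ M * n := by
  classical
  have : SS g y ⊆ Finset.univ.image fun q : Fin M × Fin n => (y q.1).elim 0 fun v => g (v q.2) := by
    intro t ht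
    obtain ⟨i, v, r, h1, h2⟩ := mem_SS.1 ht
    exact Finset.mem_image.2 ⟨(i, r), Finset.mem_univ _, by rw [h1]; exact h2⟩
  exact (Finset.card_le_card this).trans (Finset.card_image_le.trans (by simp))

/-- the cells of dimension `d` -/
def PP (n M d : ℕ) : Type :=
  {ρ : Fin M → Option (Fin n → Fin d) // ∀ k, ∃ i r j, ρ i = Option.some r ∧ r j = k}

/-- the characteristic maps -/
def cc (χ : (Fin n → ℝ) → Sp n) (ρ : Fin M → Option (Fin n → Fin d)) (t : Fin d → ℝ) :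
    Fin M → Sp n := fun i => (ρ i).elim ∞ fun r => χ (t ∘ r)

section
variable {h g : ℝ → ℝ} {χ : (Fin n → ℝ) → Sp n} (hg : ∀ t ∈ Ioo (0 : ℝ) 1, g (h t) = t)
  (h1 : ∀ t, (∀ i, t i ∈ Ioo (0 : ℝ) 1) → χ t = ((fun i => h (t i) : Fin n → ℝ) : Sp n))
  (h2 : ∀ t, ¬ (∀ i, t i ∈ Ioo (0 : ℝ) 1) → χ t = ∞)
include hg h1

theorem SS_int (ρ : PP n M d) {t : Fin d → ℝ} (ht : ∀ i, t i ∈ Ioo (0 : ℝ) 1) (k : Fin d) :
    t k ∈ SS g (cc χ ρ.1 t) := by
  obtain ⟨i, r, j, e, rfl⟩ := ρ.2 k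
  exact mem_SS.2 ⟨i, _, j, by rw [cc, e]; exact h1 _ fun _ => ht _, hg _ (ht _)⟩

include h2

theorem SS_sub {ρ : Fin M → Option (Fin n → Fin d)} {t : Fin d → ℝ} {x : ℝ}
    (hx : x ∈ SS g (cc χ ρ t)) : ∃ k, t k = x ∧ x ∈ Ioo (0 : ℝ) 1 := by
  obtain ⟨i, v, j, e, rfl⟩ := mem_SS.1 hx
  rw [cc] at e
  rcases hr : ρ i with _ | r <;> rw [hr] at e
  · exact absurd e (infty_ne_coe _)
  · by_cases c : ∀ i, (t ∘ r) i ∈ Ioo (0 : ℝ) 1
    · obtain rfl := coe_injective ((h1 _ c).symm.trans e)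
      rw [hg _ (c j)]
      exact ⟨r j, rfl, c j⟩
    · exact absurd ((h2 _ c).symm.trans e) (infty_ne_coe _)

theorem SS_eq (ρ : PP n M d) {t : Fin d → ℝ} (ht : ∀ i, t i ∈ Ioo (0 : ℝ) 1) :
    (SS g (cc χ ρ.1 t) : Set ℝ) = range t :=
  Subset.antisymm (fun _ hx => (SS_sub hg h1 h2 hx).imp fun _ a => a.1)
    (range_subset_iff.2 (SS_int hg h1 ρ ht))

theorem card_int (ρ : PP n M d) {t : Fin d → ℝ} (hs : StrictMono t)
    (ht : ∀ i, t i ∈ Ioo (0 : ℝ) 1) : (SS g (cc χ ρ.1 t)).card = d := by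
  rw [← ncard_coe_finset, SS_eq hg h1 h2 ρ ht, ncard_range_of_injective hs.injective]
  simp

theorem card_bd (ρ : Fin M → Option (Fin n → Fin d)) {t : Fin d → ℝ} (hm : Monotone t)
    (ht : ¬ (StrictMono t ∧ ∀ i, t i ∈ Ioo (0 : ℝ) 1)) : (SS g (cc χ ρ t)).card < d := by
  classical
  have : ∃ a, ∀ k, t k ∈ Ioo (0 : ℝ) 1 → ∃ b, b ≠ a ∧ t b = t k := by
    by_cases c : ∀ i, t i ∈ Ioo (0 : ℝ) 1
    · obtain ⟨a, b, e, ab⟩ := Function.not_injective_iff.1
        fun i => ht ⟨hm.strictMono_of_injective i, c⟩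
      refine ⟨a, fun k _ => ?_⟩
      rcases eq_or_ne k a with rfl | hk
      exacts [⟨b, ab.symm, e.symm⟩, ⟨k, hk, rfl⟩]
    · obtain ⟨a, ha⟩ := not_forall.1 c
      exact ⟨a, fun k hk => ⟨k, fun e => ha (e ▸ hk), rfl⟩⟩
  obtain ⟨a, ha⟩ := this
  have s : SS g (cc χ ρ t) ⊆ (Finset.univ.erase a).image t := fun x hx => by
    obtain ⟨k, rfl, hk⟩ := SS_sub hg h1 h2 hx
    obtain ⟨b, b1, b2⟩ := ha k hk
    exact Finset.mem_image.2 ⟨b, by simpa using b1, b2⟩
  have := (Finset.card_le_card s).trans Finset.card_image_le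
  have p := a.pos
  rw [Finset.card_erase_of_mem (Finset.mem_univ _), Finset.card_univ, Fintype.card_fin] at this
  omega

theorem cc_inj (ρ ρ' : PP n M d) {s t : Fin d → ℝ} (hs : StrictMono s)
    (hs' : ∀ i, s i ∈ Ioo (0 : ℝ) 1) (ht : StrictMono t) (ht' : ∀ i, t i ∈ Ioo (0 : ℝ) 1)
    (e : cc χ ρ.1 s = cc χ ρ'.1 t) : ρ = ρ' ∧ s = t := by
  obtain rfl : s = t := (hs.range_inj ht).1 (by
    rw [← SS_eq hg h1 h2 ρ hs', e, SS_eq hg h1 h2 ρ' ht'])
  refine ⟨Subtype.ext (funext fun i => ?_), rfl⟩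
  have := congrFun e i
  rw [cc, cc] at this
  rcases a : ρ.1 i with _ | r <;> rcases b : ρ'.1 i with _ | r' <;> rw [a, b] at this
  · exact absurd (this.trans (h1 _ fun _ => hs' _)) (infty_ne_coe _)
  · exact absurd (this.symm.trans (h1 _ fun _ => hs' _)) (infty_ne_coe _)
  · have k := coe_injective (((h1 _ fun _ => hs' _).symm.trans this).trans (h1 _ fun _ => hs' _))
    refine congrArg Option.some (funext fun j => hs.injective ?_)
    rw [← hg _ (hs' (r j)), ← hg _ (hs' (r' j))]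
    exact congrArg g (congrFun k j)

omit hg h2 in
theorem ex_cell (g1 : ∀ v, g v ∈ Ioo (0 : ℝ) 1) (g2 : ∀ v, h (g v) = v) {y : Fin M → Sp n}
    (hy : (SS g y).card = d) : ∃ (ρ : PP n M d) (t : Fin d → ℝ),
      (StrictMono t ∧ ∀ i, t i ∈ Ioo (0 : ℝ) 1) ∧ cc χ ρ.1 t = y := by
  let t := (SS g y).orderEmbOfFin hy
  have r1 : range t = SS g y := Finset.range_orderEmbOfFin _ hy
  have ht : ∀ i, t i ∈ Ioo (0 : ℝ) 1 := fun i => by
    obtain ⟨_, v, r, -, e⟩ := mem_SS.1 (Finset.orderEmbOfFin_mem _ hy i)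
    exact e ▸ g1 _
  have : ∀ i, ∃ o : Option (Fin n → Fin d), (y i = ∞ → o = none) ∧
      ∀ v : Fin n → ℝ, y i = v → ∃ r, o = Option.some r ∧ ∀ j, t (r j) = g (v j) := fun i => by
    rcases e : y i with _ | v
    · exact ⟨none, fun _ => rfl, fun v k => absurd k (infty_ne_coe _)⟩
    · choose r hr using fun j => show g (v j) ∈ range t from
        r1.symm ▸ mem_SS.2 ⟨i, v, j, e, rfl⟩
      exact ⟨Option.some r, fun k => absurd k (coe_ne_infty _),
        fun w k => ⟨r, rfl, by obtain rfl := coe_injective k; exact hr⟩⟩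
  choose ρ a b using this
  refine ⟨⟨ρ, fun k => ?_⟩, t, ⟨t.strictMono, ht⟩, funext fun i => ?_⟩
  · obtain ⟨i, v, j, e1, e2⟩ := mem_SS.1 (Finset.orderEmbOfFin_mem _ hy k)
    obtain ⟨r, a1, a2⟩ := b i v e1
    exact ⟨i, r, j, a1, t.injective ((a2 j).trans e2)⟩
  · rw [cc]
    rcases e : y i with _ | v
    · change (ρ i).elim _ _ = _
      rw [a i e]
      rfl
    · obtain ⟨r, a1, a2⟩ := b i v e
      change (ρ i).elim _ _ = _
      rw [a1]
      refine (h1 _ fun _ => ht _).trans (congrArg OnePoint.some (funext fun j => ?_))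
      rw [a2, g2]

end

theorem SS_perm (g : ℝ → ℝ) (y : Fin M → Sp n) (σ : Equiv.Perm (Fin M)) :
    SS g (y ∘ σ) = SS g y := by
  ext t
  rw [mem_SS, mem_SS]
  exact σ.exists_congr fun _ => Iff.rfl

theorem cellS : CellS := by
  classical
  intro hB hχ n M Z _ q q1 q2
  obtain ⟨h, χ, hb, hc, h1, h2⟩ := hχ n
  let g := Function.invFunOn h (Ioo 0 1)
  have hg : ∀ t ∈ Ioo (0 : ℝ) 1, g (h t) = t := fun t ht => hb.invOn_invFunOn.1 ht
  have g1 : ∀ v, g v ∈ Ioo (0 : ℝ) 1 := fun v => hb.surjOn.mapsTo_invFunOn (mem_univ v)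
  have g2 : ∀ v, h (g v) = v := fun v => hb.invOn_invFunOn.2 (mem_univ v)
  have fin : ∀ d, Fintype (PP n M d) := fun d => by unfold PP; infer_instance
  refine ⟨{
    N := M * n + 1
    P := PP n M
    sk := fun d => {y | (SS g y).card < d}
    sk_zero := by simp
    sk_top := eq_univ_of_forall fun y => Nat.lt_succ_of_le (card_SS g y)
    mono := fun d y hy => Nat.lt_succ_of_lt hy
    c := fun d ρ => cc χ ρ.1
    cont := fun d ρ => continuousOn_pi.2 fun i => ?_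
    bd := fun d ρ t ht => ?_
    inj := fun d x y s hs t ht e => ?_
    cov := fun d => ?_
    act := fun σ => ⟨fun y => y ∘ σ, by fun_prop⟩
    act_mul := fun _ _ _ => rfl
    act_sk := fun d σ y => by
      change (SS g (y ∘ σ)).card < d ↔ _
      rw [SS_perm]
      rfl
    pact := fun d σ ρ => ⟨ρ.1 ∘ σ, fun k => by
      obtain ⟨i, r, j, a, b⟩ := ρ.2 k
      exact ⟨σ.symm i, r, j, by simpa using a, b⟩⟩
    c_act := fun _ _ _ _ => rfl
    q := q
    q_surj := q1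
    q_eq := q2 }, rfl, fun _ _ => rfl⟩
  · simp only [cc]
    rcases ρ.1 i with _ | r
    · exact continuousOn_const
    · exact hc.comp (f := fun t : Fin d → ℝ => t ∘ r) (by fun_prop) fun t ht j => ht.2 _
  · rw [(hB d).2.1.isClosed.frontier_eq, (hB d).2.2.2] at ht
    exact card_bd hg h1 h2 _ ht.1.1 ht.2
  · rw [(hB d).2.2.2] at hs ht
    exact cc_inj hg h1 h2 x y hs.1 hs.2 ht.1 ht.2 e
  · rw [(hB d).2.2.2]
    ext y
    simp only [mem_sdiff, mem_ofPred_eq, mem_iUnion, mem_image]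
    constructor
    · exact fun k => ex_cell h1 g1 g2 (by omega)
    · rintro ⟨ρ, t, ht, rfl⟩
      rw [card_int hg h1 h2 ρ ht.1 ht.2]
      omega

end Vale.Agent.P251EJ98
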