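import Vale.Agent.P251EJ.DefsA
import Mathlib.RingTheory.Flat.EquationalCriterion

/-!
# P251EJ: the theorem of Lazard, countable graded form
-/

open DirectSum

noncomputable section

namespace Vale.Agent.P251EJ98

open Vale.Agent.P251EJ

/-- The equational criterion for finitely many relations. -/
theorem multi {R A : Type} [CommRing R] [AddCommGroup A] [Module R A] [Module.Flat R A]
    {E I : Type} [Fintype E] [Fintype I] (c : E → I → R) (g : I → A)
    (h : ∀ e, ∑ a, c e a • g a = 0) : ∃ (k : ℕ) (m : I → Fin k → R) (y : Fin k → A),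
      (∀ i, g i = ∑ j, m i j • y j) ∧ ∀ e j, ∑ i, c e i * m i j = 0 := by
  classical
  have h0 : Fintype.linearCombination R g ∘ₗ Fintype.linearCombination R c = 0 := by
    refine LinearMap.pi_ext' fun e => LinearMap.ext_ring ?_
    simpa [Fintype.linearCombination_apply, Pi.single_apply] using h e
  obtain ⟨k, a, y, h1, h2⟩ := Module.Flat.exists_factorization_of_comp_eq_zero_of_free h0
  refine ⟨k, fun i j => a (Pi.single i 1) j, fun j => y (Finsupp.single j 1), fun i => ?_,
    fun e j => ?_⟩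
  · have := LinearMap.congr_fun h1 (Pi.single i 1)
    rw [Fintype.linearCombination_apply_single, one_smul, LinearMap.comp_apply] at this
    rw [this]
    conv_lhs => rw [← Finsupp.univ_sum_single (a (Pi.single i 1))]
    rw [map_sum]
    refine Finset.sum_congr rfl fun j _ => ?_
    rw [← map_smul, Finsupp.smul_single, smul_eq_mul, mul_one]
  · have := LinearMap.congr_fun h2 (Pi.single e 1)
    rw [LinearMap.comp_apply, Fintype.linearCombination_apply_single, one_smul,
      LinearMap.zero_apply, pi_eq_sum_univ' (c e), map_sum] at this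
    have := DFunLike.congr_fun this j
    simpa [Finsupp.finsetSum_apply] using this

section
variable {A : Type} [CommRing A] (H : ℤ → AddSubgroup A) [GradedRing H]

theorem pr_mem (d : ℤ) (x : A) : GradedRing.proj H d x ∈ H d := (decompose H x d).2

theorem pr_right {y : A} {t : ℤ} (hy : y ∈ H t) (d : ℤ) (x : A) :
    GradedRing.proj H d (x * y) = GradedRing.proj H (d - t) x * y := by
  have := coe_decompose_mul_add_of_right_mem H (a := x) (i := d - t) hy
  rwa [sub_add_cancel] at this

theorem pr_same {x : A} {d : ℤ} (h : x ∈ H d) : GradedRing.proj H d x = x :=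
  decompose_of_mem_same H h

theorem ex_sum {J : Type} [Fintype J] (δ : J → ℤ) (y : J → A) :
    ∃ S : Finset ℤ, ∀ j, y j = ∑ t : S, GradedRing.proj H (t - δ j) (y j) := by
  classical
  refine ⟨Finset.univ.biUnion fun j => (decompose H (y j)).support.image (· + δ j), fun j => ?_⟩
  rw [Finset.sum_coe_sort _ fun t => GradedRing.proj H (t - δ j) (y j)]
  conv_lhs => rw [← sum_support_decompose H (y j)]
  refine Finset.sum_of_injOn (· + δ j) (fun a _ b _ e => add_right_cancel e) (fun t ht => ?_)
    (fun t _ ht => ?_) fun t _ => by rw [add_sub_cancel_right]; rfl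
  · exact Finset.mem_biUnion.2 ⟨j, Finset.mem_univ _, Finset.mem_image_of_mem _ ht⟩
  · by_contra hne
    refine ht ⟨t - δ j, ?_, sub_add_cancel _ _⟩
    exact DFinsupp.mem_support_iff.2 fun e => hne (congrArg Subtype.val e)

end

/-- A finite family of homogeneous elements. -/
structure Fam {A : Type} [CommRing A] (H : ℤ → AddSubgroup A) where
  I : Type
  [fin : Fintype I]
  deg : I → ℤ
  g : I → A
  mem : ∀ a, g a ∈ H (deg a)

attribute [instance] Fam.fin

variable {R A : Type} [CommRing R] [CommRing A] {𝓡 : ℤ → AddSubgroup R} [GradedRing 𝓡]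
  {H : ℤ → AddSubgroup A} [GradedRing H] {lam : R →+* A}

theorem pr_lam (hl : ∀ d, ∀ r ∈ 𝓡 d, lam r ∈ H d) (d : ℤ) (r : R) :
    GradedRing.proj H d (lam r) = lam (GradedRing.proj 𝓡 d r) := by
  induction r using Decomposition.inductionOn 𝓡 with
  | zero => simp
  | add a b ha hb => simp only [map_add, ha, hb]
  | @homogeneous i x =>
    rcases eq_or_ne i d with rfl | hi
    · rw [pr_same H (hl _ _ x.2), pr_same 𝓡 x.2]
    · rw [GradedRing.proj_apply, GradedRing.proj_apply, decompose_of_mem_ne H (hl _ _ x.2) hi,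
        decompose_of_mem_ne 𝓡 x.2 hi, map_zero]

/-- One step: kill a relation and add a generator. -/
theorem step (hl : ∀ d, ∀ r ∈ 𝓡 d, lam r ∈ H d) (hf : lam.Flat) (s : Fam H) (c : s.I → R)
    (x : Σ d, H d) : ∃ (s' : Fam H) (M : s.I → s'.I → R),
      (∀ a b, M a b ∈ 𝓡 (s.deg a - s'.deg b)) ∧ (∀ a, s.g a = ∑ b, lam (M a b) * s'.g b) ∧
      (∑ a, lam (c a) * s.g a = 0 → ∀ b, ∑ a, c a * M a b = 0) ∧
      ∃ b, s'.deg b = x.1 ∧ s'.g b = x.2 := by
  classical
  wlog hc : ∑ a, lam (c a) * s.g a = 0 generalizing c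
  · obtain ⟨s', M, h1, h2, -, h4⟩ := this 0 (by simp)
    exact ⟨s', M, h1, h2, fun h => absurd h hc, h4⟩
  let := lam.toAlgebra
  have : Module.Flat R A := hf
  obtain ⟨E, hE⟩ := ex_sum 𝓡 s.deg c
  obtain ⟨k, m, y, h1, h2⟩ := multi (fun (e : E) a => GradedRing.proj 𝓡 (e - s.deg a) (c a)) s.g
    fun e => by
      have := congrArg (GradedRing.proj H e) hc
      rw [map_sum, map_zero] at this
      refine Eq.trans (Finset.sum_congr rfl fun a _ => ?_) this
      rw [pr_right H (s.mem a), pr_lam hl]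
      rfl
  obtain ⟨S, hS⟩ := ex_sum H (fun _ => 0) y
  refine ⟨⟨Option (Fin k × S), fun b => b.elim x.1 fun q => q.2,
    fun b => b.elim x.2 fun q => GradedRing.proj H q.2 (y q.1), ?_⟩,
    fun a b => b.elim 0 fun q => GradedRing.proj 𝓡 (s.deg a - q.2) (m a q.1), ?_, fun a => ?_,
    fun _ => ?_, none, rfl, rfl⟩
  · rintro (_ | q)
    · exact x.2.2
    · exact pr_mem H _ _
  · rintro a (_ | q)
    · exact zero_mem _
    · exact pr_mem 𝓡 _ _
  · rw [← pr_same H (s.mem a), h1 a, map_sum, Fintype.sum_option, Fintype.sum_prod_type]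
    simp only [Option.elim, map_zero, zero_mul, zero_add]
    refine Finset.sum_congr rfl fun j _ => ?_
    conv_lhs => rw [hS j, Finset.smul_sum, map_sum]
    refine Finset.sum_congr rfl fun t _ => ?_
    rw [sub_zero, ← pr_lam hl, ← pr_right H (pr_mem H _ _)]
    rfl
  · rintro (_ | q)
    · simp
    · simp only [Option.elim]
      have : ∀ e : E, ∑ a, GradedRing.proj 𝓡 (e - s.deg a) (c a) *
          GradedRing.proj 𝓡 (s.deg a - q.2) (m a q.1) = 0 := fun e => by
        have := congrArg (GradedRing.proj 𝓡 (e - q.2)) (h2 e q.1)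
        rw [map_sum, map_zero] at this
        refine Eq.trans (Finset.sum_congr rfl fun a _ => ?_) this
        rw [mul_comm _ (m a q.1), pr_right 𝓡 (pr_mem 𝓡 _ _), mul_comm, sub_sub_sub_cancel_left]
      rw [← Finset.sum_eq_zero fun e (_ : e ∈ Finset.univ) => this e, Finset.sum_comm]
      refine Finset.sum_congr rfl fun a _ => ?_
      rw [← Finset.sum_mul, ← hE a]

theorem lazard : Lazard := by
  classical
  intro R A _ _ _ _ 𝓡 _ H _ lam hl hf
  choose nx M hM hg hk hx using step hl hf
  have en0 : ∀ s : Fam H, ∃ e : ℕ → s.I → R, e.Surjective := fun s => exists_surjective_nat _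
  choose en hen using en0
  have : Nonempty (Σ d, H d) := ⟨⟨0, 0⟩⟩
  obtain ⟨xs, hxs⟩ := exists_surjective_nat (Σ d, H d)
  let s0 : Fam H := ⟨Empty, Empty.elim, Empty.elim, fun a => a.elim⟩
  let st : ℕ → Σ s : Fam H, ℕ → ℕ → s.I → R := fun n => Nat.rec ⟨s0, fun _ => en s0⟩
    (fun n q => ⟨nx q.1 (q.2 n.unpair.1 n.unpair.2) (xs n), fun i k =>
      if i = n + 1 then en _ k else fun b => ∑ a, q.2 i k a * M _ _ _ a b⟩) n
  let c0 : ∀ n, (st n).1.I → R := fun n => (st n).2 n.unpair.1 n.unpair.2
  let MM : ∀ n, (st n).1.I → (st (n + 1)).1.I → R := fun n => M (st n).1 (c0 n) (xs n)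
  have e1 : ∀ n, (st n).2 n = en (st n).1 := by
    rintro (_ | n)
    · rfl
    · exact funext fun k => if_pos rfl
  have e2 : ∀ n i k, i ≤ n → (st (n + 1)).2 i k = fun b => ∑ a, (st n).2 i k a * MM n a b :=
    fun n i k h => if_neg (by omega)
  have e3 : ∀ n a, (st n).1.g a = ∑ b, lam (MM n a b) * (st (n + 1)).1.g b := fun n => hg _ _ _
  refine ⟨⟨fun n => (st n).1.I, fun n => (st n).1.deg, MM, fun n => hM _ _ _, fun n => (st n).1.g,
    fun n => (st n).1.mem, e3, fun d x hd => ?_, fun i c hc h0 => ?_⟩⟩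
  · obtain ⟨n, hn⟩ := hxs ⟨d, x, hd⟩
    obtain ⟨b, b1, b2⟩ := hx (st n).1 (c0 n) (xs n)
    replace b1 := b1.trans (congrArg Sigma.fst hn)
    replace b2 := b2.trans (congrArg (fun q : Σ d, H d => (q.2 : A)) hn)
    refine ⟨n + 1, Pi.single b 1, fun a => ?_, ?_⟩
    · rcases eq_or_ne a b with rfl | ha
      · have : d - (st (n + 1)).1.deg a = 0 := sub_eq_zero.2 b1.symm
        rw [Pi.single_eq_same, this]
        exact SetLike.GradedOne.one_mem
      · rw [Pi.single_eq_of_ne ha]
        exact zero_mem _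
    · rw [Finset.sum_eq_single b (fun a _ ha => by rw [Pi.single_eq_of_ne ha, map_zero, zero_mul])
        (by simp), Pi.single_eq_same, map_one, one_mul]
      exact b2.symm
  · obtain ⟨k, hk'⟩ := hen (st i).1 (c i)
    have a1 : ∀ j, i ≤ j → c j = (st j).2 i k ∧ ∑ a, lam (c j a) * (st j).1.g a = 0 := by
      intro j hj
      induction j, hj using Nat.le_induction with
      | base => exact ⟨by rw [e1, hk'], h0⟩
      | succ j hj ih =>
        refine ⟨funext fun b => by rw [hc j hj, e2 j i k hj, ih.1], ?_⟩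
        rw [← ih.2]
        simp only [hc j hj, e3 j, map_sum, map_mul, Finset.sum_mul, Finset.mul_sum, mul_assoc]
        exact Finset.sum_comm
    have hj := Nat.left_le_pair i k
    have a2 : c (Nat.pair i k) = c0 (Nat.pair i k) := by
      simp only [c0, Nat.unpair_pair]
      exact (a1 _ hj).1
    refine ⟨Nat.pair i k + 1, by omega, funext fun b => ?_⟩
    have a3 := (a1 _ hj).2
    rw [a2] at a3
    rw [hc _ hj, a2]
    exact hk _ _ _ a3 b

end Vale.Agent.P251EJ98
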